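import Vale.Agent.Lib.P314.ABP.Main

namespace Vale.Agent.Results.P314.ConstantWidthABP

open Vale.Agent.Lib.P314.ABP

/-- Explicit hitting set of polynomial size for noncommutative algebraic branching programs of
bounded width, over every field of characteristic zero: if the layered branching program
`(A, u, v)` with `n` variables, `D` layers and width `w` computes a nonzero polynomial, then
one of the explicit evaluation points `hitMatrix F w D c`, `c = 0, ..., n D (2D)^(clog 2 (w+1))`,
gives a nonzero matrix. The points are tuples of `(D+1) × (D+1)` matrices with natural number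
entries that depend only on `n`, `D`, `w`. -/
theorem result (F : Type*) [Field F] [CharZero F] (n D w : ℕ)
    (A : Fin D → Fin n → Matrix (Fin w) (Fin w) F) (u v : Fin w → F)
    (hf : abpPoly A u v ≠ 0) :
    ∃ c ∈ Finset.range (n * D * (2 * D) ^ Nat.clog 2 (w + 1) + 1),
      FreeAlgebra.lift F (hitMatrix F w D c) (abpPoly A u v) ≠ 0 := by
  obtain ⟨c, hc, hne⟩ := abp_hitting_hom n D w A u v hf
  exact ⟨c, Finset.range_subset_range.mpr (bound_le n D w) hc, hne⟩

end Vale.Agent.Results.P314.ConstantWidthABP
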