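import Vale.Agent.Lib.P314.DimBound

namespace Vale.Agent.Results.P314.DimLowerBound

open Vale.Agent.Lib.P314

/-- Any hitting set for the noncommutative formulas of size at most `s` (in `n ≥ 1` variables,
over any field) has total matrix dimension at least `(s + 2) / 4`. -/
theorem result {F : Type*} [Field F] {n : ℕ} (hn : 0 < n) {s : ℕ} (hs : 1 ≤ s)
    (H : Finset (Sigma fun d : ℕ => Fin n → Matrix (Fin d) (Fin d) F))
    (hH : IsHittingSet H s) : s + 2 ≤ 4 * ∑ T ∈ H, T.1 :=
  dim_bound hn hs H hH

end Vale.Agent.Results.P314.DimLowerBound
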