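import Vale.Agent.Lib.P314.ABP.Main

namespace Vale.Agent.Results.P314.GradedWidthABP

open Vale.Agent.Lib.P314.ABP

/-- Explicit hitting set for all noncommutative polynomials of degree at most `D` in `n`
variables whose homogeneous component of each degree `k ≤ D` is computed by a layered
branching program of width `w` and length `k` (over a field of characteristic zero): such a
polynomial, if nonzero, has a nonzero matrix evaluation at one of the explicit points
`hitMatrix F w D c`, `c = 0, ..., n D (w+1)^(clog 2 D)`; and this number of points is at most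
`n D (2D)^(clog 2 (w+1)) + 1`, a polynomial in `n` and `D` for each fixed `w`. -/
theorem result (F : Type*) [Field F] [CharZero F] (n D w : ℕ) :
    (∀ (A : ∀ k : Fin (D + 1), Fin k → Fin n → Matrix (Fin w) (Fin w) F)
        (u v : Fin (D + 1) → Fin w → F),
        ∑ k : Fin (D + 1), abpPoly (A k) (u k) (v k) ≠ 0 →
        ∃ c ∈ Finset.range (n * D * (w + 1) ^ Nat.clog 2 D + 1),
          FreeAlgebra.lift F (hitMatrix F w D c)
            (∑ k : Fin (D + 1), abpPoly (A k) (u k) (v k)) ≠ 0) ∧
      n * D * (w + 1) ^ Nat.clog 2 D + 1 ≤ n * D * (2 * D) ^ Nat.clog 2 (w + 1) + 1 :=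
  ⟨fun A u v hf => abp_hitting n D w A u v hf, bound_le n D w⟩

end Vale.Agent.Results.P314.GradedWidthABP
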