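import Vale.Agent.Lib.P314.ABP.Main

namespace Vale.Agent.Results.P314.LargeCharABP

open Vale.Agent.Lib.P314.ABP

/-- Explicit hitting set for noncommutative polynomials of bounded branching-program width over
every field whose characteristic is zero or larger than `N = n D (w+1)^(clog 2 D)`: if `f` has
degree at most `D` and its homogeneous component of each degree `k ≤ D` is computed by a layered
branching program of width `w` and length `k`, and `f` is nonzero, then `f` has a nonzero matrix
evaluation at one of the explicit points `hitMatrix F w D c`, `c = 0, ..., N`; and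
`N + 1 ≤ n D (2D)^(clog 2 (w+1)) + 1`, a polynomial in `n` and `D` for each fixed `w`. -/
theorem result (F : Type*) [Field F] (n D w : ℕ)
    (hF : ringChar F = 0 ∨ n * D * (w + 1) ^ Nat.clog 2 D < ringChar F) :
    (∀ (A : ∀ k : Fin (D + 1), Fin k → Fin n → Matrix (Fin w) (Fin w) F)
        (u v : Fin (D + 1) → Fin w → F),
        ∑ k : Fin (D + 1), abpPoly (A k) (u k) (v k) ≠ 0 →
        ∃ c ∈ Finset.range (n * D * (w + 1) ^ Nat.clog 2 D + 1),
          FreeAlgebra.lift F (hitMatrix F w D c)
            (∑ k : Fin (D + 1), abpPoly (A k) (u k) (v k)) ≠ 0) ∧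
      n * D * (w + 1) ^ Nat.clog 2 D + 1 ≤ n * D * (2 * D) ^ Nat.clog 2 (w + 1) + 1 := by
  have hchar : ∀ m : ℕ, 0 < m → m ≤ n * D * (w + 1) ^ Nat.clog 2 D → (m : F) ≠ 0 := by
    intro m hm hmN h0
    have hdvd : ringChar F ∣ m := (ringChar.spec F m).mp h0
    rcases hF with h | h
    · rw [h] at hdvd
      have := Nat.eq_zero_of_zero_dvd hdvd
      omega
    · have := Nat.le_of_dvd hm hdvd
      omega
  exact ⟨fun A u v hf => abp_hitting_of_bound n D w hchar A u v hf, bound_le n D w⟩

end Vale.Agent.Results.P314.LargeCharABP
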